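import Crest.Agent.WLH.Inp
import Crest.Agent.WLX.UNCode

/-!
# Row 290, module B: tables as data

`tabCode T`: code of a table.  `fieldC c z p f`: field `f` of instruction `p` of `inpT z T`
(`c = tabCode T`): `0 = kd`, `1 = rg`, `2 = bt`, `3 = l0`, `4 = l1`, `5 = l2`.
-/

set_option autoImplicit false

namespace Crest.Agent.WLM

open Crest.Agent.CHR Crest.Agent.WLX Crest.CountHier Crest.Agent.WLH

/-- the fields of an instruction of a table -/
def fv (T : Tab) (p f : ℕ) : ℕ :=
  if f = 0 then kd T p else if f = 1 then rg T p else if f = 2 then bt T p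
  else if f = 3 then l0 T p else if f = 4 then l1 T p else l2 T p

theorem fv_lt {T : Tab} (hT : T.Ok) (p f : ℕ) : fv T p f < T.length + 3 := by
  have h0 := hT.1
  have key : kd T p < T.length + 3 ∧ rg T p < T.length + 3 ∧ bt T p < T.length + 3 ∧
      l0 T p < T.length + 3 ∧ l1 T p < T.length + 3 ∧ l2 T p < T.length + 3 := by
    unfold kd rg bt l0 l1 l2
    rcases h : T[p]? with _ | i
    · simp
    · have hi := hT.2 i (List.mem_of_getElem? h)
      cases i with
      | push r b l => cases b <;> simp only [TI.Ok] at hi <;> refine ⟨?_, ?_, ?_, ?_, ?_, ?_⟩ <;> simp <;> omega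
      | pop r le lf lt => simp only [TI.Ok] at hi; refine ⟨?_, ?_, ?_, ?_, ?_, ?_⟩ <;> simp <;> omega
  unfold fv
  split_ifs <;> tauto

theorem fv_none {T : Tab} {p : ℕ} (h : T.length ≤ p) (f : ℕ) : fv T p f = 0 := by
  have e : T[p]? = none := List.getElem?_eq_none h
  unfold fv kd rg bt l0 l1 l2
  simp [e]

/-- the bits of the code: unary blocks of width `L + 3`, six per instruction -/
def tabBits (T : Tab) : W :=
  (List.range (T.length * 6 * (T.length + 3))).map fun q =>
    decide (q % (T.length + 3) < fv T (q / (T.length + 3) / 6) (q / (T.length + 3) % 6))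

def tabCode (T : Tab) : W := pairBits (un T.length) (tabBits T)

/-- reading a field from the code -/
def fC (c : W) (p f : ℕ) : ℕ :=
  ((Finset.range ((fstB c).length + 3)).filter fun j =>
    (sndB c).getD ((p * 6 + f) * ((fstB c).length + 3) + j) false = true).card

theorem fC_tabCode {T : Tab} (hT : T.Ok) (p : ℕ) {f : ℕ} (hf : f < 6) :
    fC (tabCode T) p f = fv T p f := by
  have hlt := fv_lt hT p f
  unfold fC tabCode
  rw [fstB_pairBits, sndB_pairBits, un_length]
  have e : (Finset.range (T.length + 3)).filter (fun j =>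
      (tabBits T).getD ((p * 6 + f) * (T.length + 3) + j) false = true) =
      Finset.range (fv T p f) := by
    ext j
    simp only [Finset.mem_filter, Finset.mem_range]
    constructor
    · rintro ⟨hj, h⟩
      by_cases hp : p < T.length
      · have hq : (p * 6 + f) * (T.length + 3) + j < T.length * 6 * (T.length + 3) := by
          have : (p * 6 + f + 1) * (T.length + 3) ≤ T.length * 6 * (T.length + 3) :=
            Nat.mul_le_mul_right _ (by omega)
          rw [Nat.add_mul, Nat.one_mul] at this
          omega
        have h1 : ((p * 6 + f) * (T.length + 3) + j) / (T.length + 3) = p * 6 + f := by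
          rw [Nat.add_comm, Nat.add_mul_div_right _ _ (by omega), Nat.div_eq_of_lt hj, Nat.zero_add]
        have h2 : ((p * 6 + f) * (T.length + 3) + j) % (T.length + 3) = j := by
          rw [Nat.add_comm, Nat.add_mul_mod_self_right, Nat.mod_eq_of_lt hj]
        have h3 : (p * 6 + f) / 6 = p := by omega
        have h4 : (p * 6 + f) % 6 = f := by omega
        rw [List.getD_eq_getElem?_getD] at h
        simp only [tabBits, List.getElem?_map, List.getElem?_range hq, Option.map_some,
          Option.getD_some, h1, h2, h3, h4, decide_eq_true_eq] at h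
        exact h
      · have hq : T.length * 6 * (T.length + 3) ≤ (p * 6 + f) * (T.length + 3) + j := by
          have : T.length * 6 * (T.length + 3) ≤ (p * 6 + f) * (T.length + 3) :=
            Nat.mul_le_mul_right _ (by omega)
          omega
        rw [List.getD_eq_default _ _ (by simpa [tabBits] using hq)] at h
        cases h
    · intro h
      have hp : p < T.length := by
        by_contra hc
        rw [fv_none (by omega)] at h
        omega
      have hj : j < T.length + 3 := by omega
      refine ⟨hj, ?_⟩
      have hq : (p * 6 + f) * (T.length + 3) + j < T.length * 6 * (T.length + 3) := by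
        have : (p * 6 + f + 1) * (T.length + 3) ≤ T.length * 6 * (T.length + 3) :=
          Nat.mul_le_mul_right _ (by omega)
        rw [Nat.add_mul, Nat.one_mul] at this
        omega
      have h1 : ((p * 6 + f) * (T.length + 3) + j) / (T.length + 3) = p * 6 + f := by
        rw [Nat.add_comm, Nat.add_mul_div_right _ _ (by omega), Nat.div_eq_of_lt hj, Nat.zero_add]
      have h2 : ((p * 6 + f) * (T.length + 3) + j) % (T.length + 3) = j := by
        rw [Nat.add_comm, Nat.add_mul_mod_self_right, Nat.mod_eq_of_lt hj]
      have h3 : (p * 6 + f) / 6 = p := by omega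
      have h4 : (p * 6 + f) % 6 = f := by omega
      rw [List.getD_eq_getElem?_getD]
      simp only [tabBits, List.getElem?_map, List.getElem?_range hq, Option.map_some,
        Option.getD_some, h1, h2, h3, h4, decide_eq_true_eq]
      exact h
  rw [e, Finset.card_range]

theorem UN.fC {c : W → W} {p f : W → ℕ} (hc : PolyTime c) (hp : UN p) (hf : UN f) :
    UN (fun w => fC (c w) (p w) (f w)) := by
  have hL : UN (fun w => (fstB (c w)).length) := UN.len (PT.comp PT.fst hc)
  have hc' : PolyTime (fun z => sndB (c (fstB z))) := PT.comp PT.snd (PT.comp (g := c) hc PT.fst)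
  have hi : UN (fun z => (p (fstB z) * 6 + f (fstB z)) * ((fstB (c (fstB z))).length + 3) +
      (sndB z).length) :=
    (((hp.fst.mul (UN.const 6)).add hf.fst).mul (hL.fst.add (UN.const 3))).add UN.var
  have h := UN.card (P := fun w j =>
      (sndB (c w)).getD ((p w * 6 + f w) * ((fstB (c w)).length + 3) + j) false = true)
    (hL.add (UN.const 3)) (UP.bit hc' hi)
  refine h.congr fun w => ?_
  unfold WLM.fC
  congr

/-- field `f` of instruction `p` of `inpT z T`, `c = tabCode T` -/
def fieldC (c z : W) (p f : ℕ) : ℕ :=
  if p < z.length then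
    (if f = 0 then 1 else if f = 2 then (if z.reverse.getD p false = true then 1 else 0)
      else if f = 3 then p + 1 else 0)
  else if f = 3 then (if fC c (p - z.length) 0 = 0 then 0 else fC c (p - z.length) 3 + z.length)
  else if f = 4 then (if fC c (p - z.length) 0 = 2 then fC c (p - z.length) 4 + z.length else 0)
  else if f = 5 then (if fC c (p - z.length) 0 = 2 then fC c (p - z.length) 5 + z.length else 0)
  else fC c (p - z.length) f

theorem fieldC_eq {T : Tab} (hT : T.Ok) (z : W) (p : ℕ) {f : ℕ} (hf : f < 6) :
    fieldC (tabCode T) z p f = fv (inpT z T) p f := by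
  unfold fieldC
  by_cases hp : p < z.length
  · rw [if_pos hp]
    have e := inpT_get_left (T := T) hp
    unfold fv kd rg bt l0 l1 l2
    rw [e]
    cases hb : z.reverse.getD p false <;> interval_cases f <;> simp [hb]
  · rw [if_neg hp]
    obtain ⟨d, rfl⟩ := Nat.exists_eq_add_of_le (not_lt.1 hp)
    have e := inpT_get_right z T d
    rw [Nat.add_comm d] at e
    rw [Nat.add_sub_cancel_left]
    rw [fC_tabCode hT d (by norm_num : 0 < 6), fC_tabCode hT d (by norm_num : 3 < 6),
      fC_tabCode hT d (by norm_num : 4 < 6), fC_tabCode hT d (by norm_num : 5 < 6),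
      fC_tabCode hT d hf]
    unfold fv kd rg bt l0 l1 l2
    rw [e]
    rcases T[d]? with _ | (⟨r, b, l⟩ | ⟨r, le, lf, lt⟩)
    · interval_cases f <;> simp
    · cases b <;> interval_cases f <;> simp [TI.shift]
    · interval_cases f <;> simp [TI.shift]

theorem UN.fieldC {c z : W → W} {p : W → ℕ} (hc : PolyTime c) (hz : PolyTime z) (hp : UN p)
    (f : ℕ) : UN (fun w => fieldC (c w) (z w) (p w) f) := by
  classical
  have hzl : UN (fun w => (z w).length) := UN.len hz
  have hpz : UN (fun w => p w - (z w).length) := hp.sub hzl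
  have hr : UP (fun w => (z w).reverse.getD (p w) false = true) := UP.bit (PT.reverse hz) hp
  have h0 := UN.fC hc hpz (UN.const 0)
  have h3 := UN.fC hc hpz (UN.const 3)
  have h4 := UN.fC hc hpz (UN.const 4)
  have h5 := UN.fC hc hpz (UN.const 5)
  have hff := UN.fC hc hpz (UN.const f)
  have h := UN.ite (UP.lt hp hzl)
    (UN.ite (UP.const (f = 0)) (UN.const 1) (UN.ite (UP.const (f = 2))
      (UN.ite hr (UN.const 1) (UN.const 0)) (UN.ite (UP.const (f = 3)) (hp.add (UN.const 1))
        (UN.const 0))))
    (UN.ite (UP.const (f = 3)) (UN.ite (UP.eqN h0 (UN.const 0)) (UN.const 0) (h3.add hzl))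
      (UN.ite (UP.const (f = 4)) (UN.ite (UP.eqN h0 (UN.const 2)) (h4.add hzl) (UN.const 0))
        (UN.ite (UP.const (f = 5)) (UN.ite (UP.eqN h0 (UN.const 2)) (h5.add hzl) (UN.const 0))
          hff)))
  refine h.congr fun w => ?_
  unfold WLM.fieldC
  congr

/-- number of instructions of `inpT z T` -/
def lenC (c z : W) : ℕ := (fstB c).length + z.length

theorem lenC_eq (T : Tab) (z : W) : lenC (tabCode T) z = (inpT z T).length := by
  rw [inpT_length]; simp [lenC, tabCode]

theorem UN.lenC {c z : W → W} (hc : PolyTime c) (hz : PolyTime z) :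
    UN (fun w => lenC (c w) (z w)) := (UN.len (PT.comp PT.fst hc)).add (UN.len hz)

section
variable {T : Tab} (hT : T.Ok) (z : W) (p : ℕ)
include hT

theorem fieldC_kd : fieldC (tabCode T) z p 0 = kd (inpT z T) p := by
  rw [fieldC_eq hT z p (by norm_num)]; simp [fv]
theorem fieldC_rg : fieldC (tabCode T) z p 1 = rg (inpT z T) p := by
  rw [fieldC_eq hT z p (by norm_num)]; simp [fv]
theorem fieldC_bt : fieldC (tabCode T) z p 2 = bt (inpT z T) p := by
  rw [fieldC_eq hT z p (by norm_num)]; simp [fv]
theorem fieldC_l0 : fieldC (tabCode T) z p 3 = l0 (inpT z T) p := by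
  rw [fieldC_eq hT z p (by norm_num)]; simp [fv]
theorem fieldC_l1 : fieldC (tabCode T) z p 4 = l1 (inpT z T) p := by
  rw [fieldC_eq hT z p (by norm_num)]; simp [fv]
theorem fieldC_l2 : fieldC (tabCode T) z p 5 = l2 (inpT z T) p := by
  rw [fieldC_eq hT z p (by norm_num)]; simp [fv]
end

end Crest.Agent.WLM
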